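import Crest.Agent.X261.Fam.GA

/-!
# Row 261, package FAM (helper69), part Defs: the statements of the existence proof

* `aL`, `E0`, `Ee`, `RG`, `SqG` : global energies;
* `Nr`, `NrStmt` : the minimisation side;
* `SumStmt` : the local inequalities summed over the charts;
* `ExStmt` : existence of the minimal form, with the exact fibre energy.
-/

set_option autoImplicit false
set_option linter.unusedSectionVars false

open Set Filter Topology MeasureTheory Matrix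
open scoped ComplexConjugate ComplexOrder InnerProductSpace ContDiff

namespace Crest.Agent.X261.Fam69

open Crest.Agent.R275.Geo Crest.Agent.R273.UCov_914
open Crest.Agent.R275.EDR890 Crest.Agent.R273.Hess_333
open Crest.Agent.R273.Kah_333 Crest.Agent.R273.Fock_243
open Crest.Agent.X261.Fam
open Crest.Agent.X261.Rel.Act (Rep Act)

noncomputable section

variable {n q : ℕ} {H : Type*} [NormedAddCommGroup H] [InnerProductSpace ℂ H]
variable {X : Type} [TopologicalSpace X] {A : Atl n X} {G : Type} [Group G]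

/-- the map `a` in other linear coordinates -/
def aL {Y : Type*} (L : Mt q) (a : Y → Cn q) : Y → Cn q := fun e => mL L (a e)

/-- the matrix `c ⊗ ∂̄ ψ` -/
def Zc (c : Fin q → ℂ) (ψ : Cn q → ℝ) (x : Cn q) : Mt q :=
  Matrix.of fun k l => c k * wd (true, l) (cu ψ) x

/-- approximate minimisers in all charts over the ball of radius `R` -/
def SqG (D : MonD A G) (K : Kah A) {M : Subgroup G} (a : D.cov G → Cn q) (r : Rep M H)
    (ε R : ℝ) (F : ℕ → D.cov G → H) : Prop :=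
  ∀ i v (K' : Set (Cn n)), IsCompact K' → K' ⊆ (A.e i).target →
    (∀ z ∈ K', ‖rd D a i v z‖ ≤ R) → Sq (cjR r) (A.e i).target
      (fun z => Qe (K.g i ((A.e i).symm z)) (Cf (rd D a i v) z) ε) K' fun j => rd D (F j) i v

variable [Finite A.ι] [Countable G]

/-- the weighted vertical energy -/
def E0 (D : MonD A G) (K : Kah A) (M : Subgroup G) (a : D.cov G → Cn q) (w : Cn q → ℝ)
    (θ : A.ι → G → Cn n → Fin n → H) : ℝ :=
  (IM D K M fun i v z => ((w (rd D a i v z) *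
    e0 (K.g i ((A.e i).symm z)) (Cf (rd D a i v) z) (θ i v z) : ℝ) : ℂ)).re

/-- the weighted energy -/
def Ee (D : MonD A G) (K : Kah A) (M : Subgroup G) (a : D.cov G → Cn q) (w : Cn q → ℝ) (ε : ℝ)
    (θ : A.ι → G → Cn n → Fin n → H) : ℝ :=
  (IM D K M fun i v z => ((w (rd D a i v z) *
    ee (K.g i ((A.e i).symm z)) (Cf (rd D a i v) z) ε (θ i v z) : ℝ) : ℂ)).re

/-- the horizontal test forms -/
def RG (D : MonD A G) (K : Kah A) (M : Subgroup G) (a : D.cov G → Cn q) (Z : Cn q → Mt q) (ε : ℝ)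
    (θ : A.ι → G → Cn n → Fin n → H) : ℂ :=
  ((ε ^ q / ε : ℝ) : ℂ) * IM D K M fun i v z =>
    ip (Wm (gE (K.g i ((A.e i).symm z)) (Cf (rd D a i v) z) ε)
      (Cf (rd D a i v) z * Z (rd D a i v z) * (Cf (rd D a i v) z)ᴴ)) (θ i v z) (θ i v z)

/-- the output of the minimisation -/
structure Nr (D : MonD A G) (K : Kah A) (M : Subgroup G) (a : D.cov G → Cn q) (r : Rep M H)
    (b : M → H) (f : ℕ → D.cov G → H) (ν : Measure (Cn q)) : Prop where
  eqv : ∀ k, Eqv D M r b (f k)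
  cau : ∀ w : Cn q → ℝ, Continuous w → HasCompactSupport w → (∀ x, 0 ≤ w x) → ∀ η : ℝ, 0 < η →
    ∃ N, ∀ k ≥ N, ∀ l ≥ N,
      E0 D K M a w (fun i v z => th (rd D (f k) i v) z - th (rd D (f l) i v) z) ≤ η
  el0 : ∀ i v (u : Cn n → H), ContDiff ℝ ∞ u → HasCompactSupport u →
    tsupport u ⊆ (A.e i).target → (∀ z, r.J (u z) = u z) →
    Tendsto (fun k => ∫ z, (ip (Q0 (K.g i ((A.e i).symm z)) (Cf (rd D a i v) z)) (th u z)
      (th (rd D (f k) i v) z)).re) atTop (𝓝 0)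
  lim : ∀ w : Cn q → ℝ, Continuous w → HasCompactSupport w →
    Tendsto (fun k => E0 D K M a w fun i v z => th (rd D (f k) i v) z) atTop (𝓝 (∫ x, w x ∂ν))
  apx : ∀ L : Mt q, L.det ≠ 0 → ∀ (R : ℝ) (χ : Cn q → ℝ), Continuous χ → HasCompactSupport χ →
    (∀ x, 0 ≤ χ x) → ∀ η : ℝ, 0 < η → ∃ ε : ℝ, 0 < ε ∧ ε ≤ 1 ∧ ∃ F : ℕ → D.cov G → H,
      (∀ j, Eqv D M r b (F j)) ∧ SqG D K (aL L a) r ε R F ∧
      (∀ᶠ j in atTop, Ee D K M (aL L a) χ ε (fun i v z => th (rd D (F j) i v) z) -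
        E0 D K M (aL L a) χ (fun i v z => th (rd D (F j) i v) z) ≤ η) ∧
      ∀ᶠ j in atTop, ∀ᶠ k in atTop, E0 D K M (aL L a) χ
        (fun i v z => th (rd D (F j) i v) z - th (rd D (f k) i v) z) ≤ η

/-- **NR**: the minimisation side -/
def NrStmt : Prop :=
  ∀ (n q : ℕ) (X : Type) [TopologicalSpace X] [T2Space X] [CompactSpace X] (A : Atl n X)
    [Finite A.ι], Part A → ∀ (K : Kah A) (G : Type) [Group G] [Countable G] (D : MonD A G)
    (M : Subgroup G) (a : D.cov G → Cn q), Dat D M a →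
    ∀ (H : Type) [NormedAddCommGroup H] [InnerProductSpace ℂ H] [CompleteSpace H] (α : Act M H),
      ∃ (f : ℕ → D.cov G → H) (ν : Measure (Cn q)), IsLocallyFiniteMeasure ν ∧
        Nr D K M a α.toRep α.b f ν

/-- **SUM**: the local inequalities summed over the charts -/
def SumStmt : Prop :=
  ∀ (n q : ℕ) (X : Type) [TopologicalSpace X] [T2Space X] [CompactSpace X] (A : Atl n X)
    [Finite A.ι], Part A → ∀ (K : Kah A) (G : Type) [Group G] [Countable G] (D : MonD A G)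
    (M : Subgroup G) (a : D.cov G → Cn q), Dat D M a →
    ∀ (H : Type) [NormedAddCommGroup H] [InnerProductSpace ℂ H] [CompleteSpace H] (r : Rep M H)
    (b : M → H) (ψ : Cn q → ℝ) (R : ℝ), ContDiff ℝ ∞ ψ → (∀ x, 0 ≤ ψ x) →
    tsupport ψ ⊆ Metric.ball 0 R →
    (∀ (ε : ℝ) (F : ℕ → D.cov G → H), 0 < ε → ε ≤ 1 → (∀ j, Eqv D M r b (F j)) →
      SqG D K a r ε R F → ∀ (c : Fin q → ℂ) (t κ η : ℝ), ∑ j, ‖c j‖ ^ 2 ≤ 1 → 0 < t → 0 < κ →
      0 < η → ∀ᶠ j in atTop, ‖RG D K M a (Zc c ψ) ε fun i v z => th (rd D (F j) i v) z‖ ≤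
        t / 2 * Ee D K M a ψ ε (fun i v z => th (rd D (F j) i v) z) +
        (1 / (4 * t) + κ) * (RG D K M a (hess ψ) ε fun i v z => th (rd D (F j) i v) z).re +
        (n + 2) / (2 * κ) * (Ee D K M a ψ ε (fun i v z => th (rd D (F j) i v) z) -
          E0 D K M a ψ fun i v z => th (rd D (F j) i v) z) + η) ∧
    ∀ i v, ∀ z₀ ∈ (A.e i).target, 0 < ψ (rd D a i v z₀) → ∃ V ∈ 𝓝 z₀, ∀ χ : Cn n → ℝ,
      ContDiff ℝ ∞ χ → tsupport χ ⊆ V → ∃ C : ℝ, 0 ≤ C ∧
      ∀ (ε : ℝ) (F : ℕ → D.cov G → H), 0 < ε → ε ≤ 1 → (∀ j, Eqv D M r b (F j)) →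
        SqG D K a r ε R F → ∀ η : ℝ, 0 < η → ∀ᶠ j in atTop, ∀ (s : Fin n) (I : FI n),
        ‖∫ z, wd (true, s) (cu χ) z • Sl (rd D a i v) (rd D (F j) i v) z I‖ ^ 2 ≤
          C * (RG D K M a (hess ψ) ε fun i v z => th (rd D (F j) i v) z).re + η

/-- **EX**: existence of the minimal form, with the exact fibre energy -/
def ExStmt : Prop :=
  ∀ (n q : ℕ) (X : Type) [TopologicalSpace X] [T2Space X] [CompactSpace X] (A : Atl n X)
    [Finite A.ι], Part A → ∀ (K : Kah A) (G : Type) [Group G] [Countable G] (D : MonD A G)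
    (M : Subgroup G) (a : D.cov G → Cn q), Dat D M a →
    ∀ (H : Type) [NormedAddCommGroup H] [InnerProductSpace ℂ H] [CompleteSpace H] (α : Act M H),
      ∃ (f : ℕ → D.cov G → H) (S : A.ι → G → X → FI n → H) (E : ℝ), 0 ≤ E ∧
        (∀ k, Eqv D M α.toRep α.b (f k)) ∧ Lm D a f S ∧ IsMin D K M a α.toRep α.b S ∧
        ∀ ψ : Cn q → ℝ, Continuous ψ → HasCompactSupport ψ → Tendsto (fun k =>
          (IM D K M fun i v z => ((ψ (rd D a i v z) * e0 (K.g i ((A.e i).symm z))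
            (Cf (rd D a i v) z) (th (rd D (f k) i v) z) : ℝ) : ℂ)).re) atTop (𝓝 (E * ∫ x, ψ x))

end

end Crest.Agent.X261.Fam69

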