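import Crest.Agent.X261.Fam.GA
import Crest.Agent.X261.Fam.FsA

/-!
# Row 261, package FAM (helper69), part Tr: transformation laws and densities

* `wd_comp'`, `th_comp`, `Cf_comp` : chain rules;
* `Jt`, `Tn`, `den_ip` : families of jets, of tensors, and the density `ip X θ θ'`;
* `tn_Q0`, `tn_Qe`, `tn_Wm` : the tensors of the package.
-/

set_option autoImplicit false
set_option linter.unusedSectionVars false

open Set Filter Topology MeasureTheory Matrix
open scoped ComplexConjugate ComplexOrder InnerProductSpace ContDiff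

namespace Crest.Agent.X261.Fam69

open Crest.Agent.R275.Geo Crest.Agent.R275.Core144 Crest.Agent.R273.UCov_914
open Crest.Agent.R275.EDR890 Crest.Agent.R273.Hess_333
open Crest.Agent.R273.Kah_333 Crest.Agent.R273.Fock_243
open Crest.Agent.X261.Fam Crest.Agent.X261.Fam.Fs
open Crest.Agent.X261.Rel.Act (Rep Act)

noncomputable section

variable {n q : ℕ} {H : Type*} [NormedAddCommGroup H] [InnerProductSpace ℂ H]

/-! ### chain rules -/

theorem Cf_apply {T : Cn n → Cn q} {z : Cn n} (hT : DifferentiableAt ℂ T z) (b : Fin n)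
    (h : Fin q) : Cf T z b h = fderiv ℂ T z (EuclideanSpace.single b 1) h := by
  have h1 := ((EuclideanSpace.proj h : Cn q →L[ℂ] ℂ).hasFDerivAt.comp z hT.hasFDerivAt)
  have h2 : wd (false, b) (fun w => T w h) z = _ :=
    Crest.Agent.R273.HessB_333.wd_hol' h1.differentiableAt b
  rw [Cf, Matrix.of_apply, h2, h1.fderiv]
  rfl

theorem wd_comp' {W : Type*} [NormedAddCommGroup W] [NormedSpace ℂ W] {f : Cn q → W}
    {T : Cn n → Cn q} {z : Cn n} (hf : DifferentiableAt ℝ f (T z))
    (hT : DifferentiableAt ℂ T z) (s : WI n) :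
    wd s (fun w => f (T w)) z = ∑ h, cj s.1 (Cf T z s.2 h) • wd (s.1, h) f (T z) := by
  have h := hf.hasFDerivAt.comp z (hT.hasFDerivAt.restrictScalars ℝ)
  have h' : fderiv ℝ (fun w => f (T w)) z =
      (fderiv ℝ f (T z)).comp ((fderiv ℂ T z).restrictScalars ℝ) := h.fderiv
  have hI : (EuclideanSpace.single s.2 Complex.I : Cn n) =
      Complex.I • EuclideanSpace.single s.2 (1 : ℂ) := by
    ext c
    simp [PiLp.single_apply]
  simp only [Cf_apply hT]
  rw [wd, h', wdL]
  simp only [ContinuousLinearMap.comp_apply, ContinuousLinearMap.coe_restrictScalars']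
  rw [hI, map_smul]
  exact wdL_vec s.1 _ _

theorem th_comp {m : ℕ} {F : Cn m → H} {T : Cn n → Cn m} {z : Cn n}
    (hF : DifferentiableAt ℝ F (T z)) (hT : DifferentiableAt ℂ T z) :
    th (fun w => F (T w)) z = ac (Cf T z) (th F (T z)) := by
  funext b
  exact wd_comp' hF hT (false, b)

theorem Cf_comp {m : ℕ} {a : Cn m → Cn q} {T : Cn n → Cn m} {z : Cn n}
    (ha : DifferentiableAt ℂ a (T z)) (hT : DifferentiableAt ℂ T z) :
    Cf (fun w => a (T w)) z = Cf T z * Cf a (T z) := by
  ext b h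
  have h1 : DifferentiableAt ℝ (fun w => a w h) (T z) :=
    (((EuclideanSpace.proj h : Cn q →L[ℂ] ℂ).differentiableAt.comp _ ha).restrictScalars ℝ)
  exact wd_comp' (f := fun w => a w h) h1 hT (false, b)

theorem Cf_mL (L : Mt q) (x : Cn q) : Cf (mL L) x = Lᵀ := by
  ext b h
  rw [Cf_apply (mL L).differentiableAt, ContinuousLinearMap.fderiv, mL_apply]
  simp [PiLp.single_apply]

/-! ### families over the charts -/

variable {X : Type} [TopologicalSpace X] {A : Atl n X} {G : Type} [Group G]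
variable {D : MonD A G} {M : Subgroup G} {a a' : D.cov G → Cn q} {R : ℝ}

/-- the metric in a chart -/
abbrev gk (K : Kah A) (i : A.ι) (z : Cn n) : Mt n := K.g i ((A.e i).symm z)

theorem kf_gk (K : Kah A) (i : A.ι) : KF (A.e i).target (gk K i) :=
  ⟨(A.e i).open_target, K.sm i, fun _ hz => K.pos i _ ((A.e i).map_target hz), K.closed i,
    K.closed' i⟩

theorem rd_ev {W : Type*} (f : D.cov G → W) {i j : A.ι} (v : G) {x : X}
    (hx : x ∈ (A.e i).source ∩ (A.e j).source) : rd D f i v =ᶠ[𝓝 (A.e i x)]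
      fun z => rd D f j (D.c i j x * v) (A.e j ((A.e i).symm z)) := by
  filter_upwards [(isOpen_ov i j).mem_nhds (mem_ov hx)] with z hz
  have h1 := (A.e i).map_target hz.1
  rw [rd_pt D f _ hz.2, Fam.rd, D.pt_eq v h1 hz.2, D.c_loc i j x hx _ ⟨h1, hz.2⟩, smul_eq_mul]

theorem tr_dif {i j : A.ι} {x : X} (hx : x ∈ (A.e i).source ∩ (A.e j).source) :
    DifferentiableAt ℂ (fun z => A.e j ((A.e i).symm z)) (A.e i x) :=
  (A.holo i j).differentiableAt ((isOpen_ov i j).mem_nhds (mem_ov hx))

theorem Cf_tr {i j : A.ι} {x : X} (hx : x ∈ (A.e i).source ∩ (A.e j).source) :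
    Cf (fun z => A.e j ((A.e i).symm z)) (A.e i x) = (Jm A i j x)ᵀ := by
  ext b h
  rw [Cf_apply (tr_dif hx)]
  rfl

theorem hol_rd (hd : Dat D M a) (i : A.ι) (v : G) :
    DifferentiableOn ℂ (rd D a i v) (A.e i).target := by
  have := hd.hol (i, v)
  rwa [preimage_univ, inter_univ] at this

theorem rd_inv (hd : Dat D M a) {m : G} (hm : m ∈ M) (i : A.ι) (v : G) :
    rd D a i (v * m⁻¹) = rd D a i v := by
  rw [rd_deck]
  funext z
  exact hd.inv m hm _

theorem rd_law {W : Type*} (f : D.cov G → W) {i j : A.ι} (v : G) {x : X}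
    (hx : x ∈ (A.e i).source ∩ (A.e j).source) :
    rd D f i v (A.e i x) = rd D f j (D.c i j x * v) (A.e j x) := by
  have := (rd_ev (D := D) f v hx).self_of_nhds
  simp only [(A.e i).left_inv hx.1] at this
  exact this

theorem Cf_law (hd : Dat D M a) {i j : A.ι} (v : G) {x : X}
    (hx : x ∈ (A.e i).source ∩ (A.e j).source) : Cf (rd D a i v) (A.e i x) =
      (Jm A i j x)ᵀ * Cf (rd D a j (D.c i j x * v)) (A.e j x) := by
  have h1 : Cf (rd D a i v) (A.e i x) =
      Cf (fun z => rd D a j (D.c i j x * v) (A.e j ((A.e i).symm z))) (A.e i x) := by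
    ext b h
    exact wd_congr ((rd_ev a v hx).mono fun z hz => congrArg (fun y : Cn q => y h) hz) _
  have h2 := (hol_rd hd j (D.c i j x * v)).differentiableAt
    ((A.e j).open_target.mem_nhds ((A.e j).map_source hx.2))
  rw [h1, Cf_comp (by rw [(A.e i).left_inv hx.1]; exact h2) (tr_dif hx), Cf_tr hx,
    (A.e i).left_inv hx.1]

theorem g_law (K : Kah A) {i j : A.ι} {x : X} (hx : x ∈ (A.e i).source ∩ (A.e j).source) :
    gk K i (A.e i x) = (Jm A i j x)ᵀ * gk K j (A.e j x) * ((Jm A i j x)ᵀ)ᴴ := by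
  rw [gk, gk, (A.e i).left_inv hx.1, (A.e j).left_inv hx.2]
  exact K.tr i j x hx

theorem Jm_det_ne (K : Kah A) {i j : A.ι} {x : X} (hx : x ∈ (A.e i).source ∩ (A.e j).source) :
    ((Jm A i j x)ᵀ).det ≠ 0 := fun h0 => by
  have := det_law K hx
  rw [Matrix.det_transpose] at h0
  rw [h0, norm_zero] at this
  exact (K.pos i x hx.1).det_pos.ne' (by simpa using this)

/-- equivariant families of jets -/
structure Jt (D : MonD A G) (M : Subgroup G) (r : Rep M H)
    (θ : A.ι → G → Cn n → Fin n → H) : Prop where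
  law : ∀ i j v, ∀ x ∈ (A.e i).source ∩ (A.e j).source,
    θ i v (A.e i x) = ac (Jm A i j x)ᵀ (θ j (D.c i j x * v) (A.e j x))
  inv : ∀ (m : M) i v, ∀ z ∈ (A.e i).target, θ i (v * (m : G)⁻¹) z = fun b => r.π m (θ i v z b)
  cont : ∀ i v b, ContinuousOn (fun z => θ i v z b) (A.e i).target

variable {r : Rep M H} {θ θ' : A.ι → G → Cn n → Fin n → H}

theorem Jt.sub (h : Jt D M r θ) (h' : Jt D M r θ') :
    Jt D M r fun i v z => θ i v z - θ' i v z where
  law i j v x hx := by rw [h.law i j v x hx, h'.law i j v x hx, ac_sub]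
  inv m i v z hz := by
    rw [h.inv m i v z hz, h'.inv m i v z hz]
    funext b
    simp only [Pi.sub_apply, map_sub]
  cont i v b := (h.cont i v b).sub (h'.cont i v b)

theorem sm_rd {W : Type*} [NormedAddCommGroup W] [NormedSpace ℝ W] {f : D.cov G → W}
    (hf : (D.atl G).Sm f) (i : A.ι) (v : G) {z : Cn n} (hz : z ∈ (A.e i).target) :
    ContDiffAt ℝ ∞ (rd D f i v) z :=
  (hf (i, v)).contDiffAt ((A.e i).open_target.mem_nhds hz)

/-- the jet of a map -/
abbrev tj (D : MonD A G) (f : D.cov G → H) (i : A.ι) (v : G) (z : Cn n) : Fin n → H :=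
  th (rd D f i v) z

theorem jt_th {b : M → H} {f : D.cov G → H} (hf : Eqv D M r b f) : Jt D M r (tj D f) where
  law i j v x hx := by
    have h1 : tj D f i v (A.e i x) =
        th (fun z => rd D f j (D.c i j x * v) (A.e j ((A.e i).symm z))) (A.e i x) :=
      funext fun b => wd_congr (rd_ev f v hx) _
    have h2 := dif (sm_rd hf.sm j (D.c i j x * v) ((A.e j).map_source hx.2))
    rw [h1, th_comp (by rw [(A.e i).left_inv hx.1]; exact h2) (tr_dif hx), Cf_tr hx,
      (A.e i).left_inv hx.1]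
  inv m i v z hz := by
    funext c
    have h1 : rd D f i (v * (m : G)⁻¹) = fun w =>
        (r.π m).toContinuousLinearEquiv.toContinuousLinearMap (rd D f i v w) + b m := by
      rw [rd_deck]
      funext w
      exact hf.eqv m _
    have h2 := dif (sm_rd hf.sm i v hz)
    have h3 : DifferentiableAt ℝ (fun w =>
        (r.π m).toContinuousLinearEquiv.toContinuousLinearMap (rd D f i v w)) z :=
      (((r.π m).toContinuousLinearEquiv.toContinuousLinearMap.restrictScalars
        ℝ).differentiableAt).comp z h2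
    change wd (false, c) (rd D f i (v * (m : G)⁻¹)) z = _
    rw [h1, wd_add h3 (differentiableAt_const _), wd_const, add_zero]
    exact wd_clm h2 _ _
  cont i v c z hz :=
    (contDiffAt_wd (sm_rd hf.sm i v hz) (false, c)).continuousAt.continuousWithinAt

/-- invariant families of tensors -/
structure Tn (D : MonD A G) (M : Subgroup G) (Y : A.ι → G → Cn n → Mt n) : Prop where
  law : ∀ i j v, ∀ x ∈ (A.e i).source ∩ (A.e j).source,
    ((Jm A i j x)ᵀ)ᴴ * Y i v (A.e i x) * (Jm A i j x)ᵀ =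
      ((‖((Jm A i j x)ᵀ).det‖ ^ 2 : ℝ) : ℂ) • Y j (D.c i j x * v) (A.e j x)
  inv : ∀ m ∈ M, ∀ i v, ∀ z ∈ (A.e i).target, Y i (v * m⁻¹) z = Y i v z
  cont : ∀ i v s p, ContinuousOn (fun z => Y i v z s p) (A.e i).target

variable {Y : A.ι → G → Cn n → Mt n}

theorem cont_ip {ι : Type*} [Fintype ι] {U : Set (Cn n)} {Z : Cn n → Matrix ι ι ℂ}
    {u u' : Cn n → ι → H} (hZ : ∀ s p, ContinuousOn (fun z => Z z s p) U)
    (h : ∀ b, ContinuousOn (fun z => u z b) U) (h' : ∀ b, ContinuousOn (fun z => u' z b) U) :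
    ContinuousOn (fun z => ip (Z z) (u z) (u' z)) U := by
  simp only [ip_eq]
  exact continuousOn_finsetSum _ fun s _ => continuousOn_finsetSum _ fun p _ =>
    (hZ s p).mul (ContinuousOn.inner (𝕜 := ℂ) (h s) (h' p))

/-- the basic density -/
theorem den_ip (hd : Dat D M a) (hY : Tn D M Y) (h : Jt D M r θ) (h' : Jt D M r θ')
    {w : Cn q → ℂ} (hw : Continuous w) (hR : ∀ x, R < ‖x‖ → w x = 0) :
    Den D M a R fun i v z => w (rd D a i v z) * ip (Y i v z) (θ i v z) (θ' i v z) where
  law i j v x hx := by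
    rw [h.law i j v x hx, h'.law i j v x hx, ← ip_conj, hY.law i j v x hx, ip_smul,
      rd_law a v hx, Matrix.det_transpose, mul_left_comm]
  inv m hm i v z hz := by
    rw [h.inv ⟨m, hm⟩ i v z hz, h'.inv ⟨m, hm⟩ i v z hz, hY.inv m hm i v z hz, rd_inv hd hm]
    exact congrArg _ (ip_iso (r.π ⟨m, hm⟩).toLinearIsometry _ _ _)
  cont i v := (hw.comp_continuousOn (hol_rd hd i v).continuousOn).mul
    (cont_ip (hY.cont i v) (h.cont i v) (h'.cont i v))
  supp i v z _ h1 := by rw [hR _ h1, zero_mul]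

theorem Den.re {Φ : A.ι → G → Cn n → ℂ} (h : Den D M a R Φ) :
    Den D M a R fun i v z => ((Φ i v z).re : ℂ) where
  law i j v x hx := by rw [h.law i j v x hx, Complex.re_ofReal_mul, Complex.ofReal_mul]
  inv m hm i v z hz := by rw [h.inv m hm i v z hz]
  cont i v := (Complex.continuous_ofReal.comp Complex.continuous_re).comp_continuousOn (h.cont i v)
  supp i v z hz h1 := by rw [h.supp i v z hz h1]; simp

/-- the real form of the basic density -/
theorem den_en (hd : Dat D M a) (hY : Tn D M Y) (h : Jt D M r θ)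
    {w : Cn q → ℝ} (hw : Continuous w) (hR : ∀ x, R < ‖x‖ → w x = 0) :
    Den D M a R fun i v z => ((w (rd D a i v z) * en (Y i v z) (θ i v z) : ℝ) : ℂ) := by
  have := Den.re (den_ip hd hY h h (w := fun x => (w x : ℂ)) (Complex.continuous_ofReal.comp hw)
    fun x hx => by rw [hR x hx, Complex.ofReal_zero])
  simpa only [Complex.re_ofReal_mul, en] using this

/-- the matrix `da` in a chart -/
abbrev Ca (D : MonD A G) (a : D.cov G → Cn q) (i : A.ι) (v : G) (z : Cn n) : Mr n q :=
  Cf (rd D a i v) z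

theorem sm_Ca (hd : Dat D M a) (i : A.ι) (v : G) {z : Cn n} (hz : z ∈ (A.e i).target) :
    SM (Ca D a i v) z := Cf_sm (A.e i).open_target (hol_rd hd i v) hz

theorem tn_Qe (K : Kah A) (hd : Dat D M a) (ε : ℝ) :
    Tn D M fun i v z => Qe (gk K i z) (Ca D a i v z) ε where
  law i j v x hx := by rw [g_law K hx, Ca, Cf_law hd v hx, Qe_conj]
  inv m hm i v z _ := by rw [Ca, rd_inv hd hm]
  cont i v s p z hz :=
    (Qe_sm (kf_gk K i) (hol_rd hd i v) ε hz s p).continuousAt.continuousWithinAt

theorem cont_GamR {m : ℕ} (S : FI n) (T : FI m) :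
    Continuous fun C : Matrix (Fin n) (Fin m) ℂ => Crest.Agent.R273.GamR_155.GamR C S T := by
  unfold Crest.Agent.R273.GamR_155.GamR
  split_ifs
  · exact (continuous_id.matrix_submatrix _ _).matrix_det
  · exact continuous_const

theorem cont_vI : Continuous (vI : Mr n q → Matrix (FI n) (Fin n) ℂ) := by
  refine continuous_pi fun I => continuous_pi fun b => ?_
  have h1 : Continuous fun C : Mr n q => tau C :=
    (continuous_pi fun S => continuous_pi fun T => cont_GamR S T).matrix_mulVec continuous_const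
  exact (continuous_apply I).comp (continuous_const.matrix_mulVec h1)

theorem cont_of_SM {ι κ : Type} {U : Set (Cn n)} {m : Cn n → Matrix ι κ ℂ}
    (h : ∀ z ∈ U, SM m z) : ContinuousOn m U :=
  continuousOn_pi.2 fun s => continuousOn_pi.2 fun p z hz =>
    (h z hz s p).continuousAt.continuousWithinAt

theorem cont_ent {ι κ : Type} {U : Set (Cn n)} {m : Cn n → Matrix ι κ ℂ}
    (h : ContinuousOn m U) (s : ι) (p : κ) : ContinuousOn (fun z => m z s p) U :=
  continuousOn_pi.1 (continuousOn_pi.1 h s) p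

theorem cont_mul {ι κ σ : Type} [Fintype κ] {U : Set (Cn n)} {m : Cn n → Matrix ι κ ℂ}
    {m' : Cn n → Matrix κ σ ℂ} (h : ContinuousOn m U) (h' : ContinuousOn m' U) :
    ContinuousOn (fun z => m z * m' z) U :=
  (continuous_fst.matrix_mul continuous_snd).comp_continuousOn (h.prodMk h')

theorem cont_ct {ι κ : Type} {U : Set (Cn n)} {m : Cn n → Matrix ι κ ℂ} (h : ContinuousOn m U) :
    ContinuousOn (fun z => (m z)ᴴ) U := (continuous_id.matrix_conjTranspose).comp_continuousOn h

theorem cont_vCa (hd : Dat D M a) (i : A.ι) (v : G) :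
    ContinuousOn (fun z => vI (Ca D a i v z)) (A.e i).target :=
  cont_vI.comp_continuousOn (cont_of_SM fun _ hz => sm_Ca hd i v hz)

theorem cont_Gam : Continuous (Gam : Mt n → Matrix (FI n) (FI n) ℂ) := by
  exact continuous_pi fun S => continuous_pi fun T => cont_GamR (m := n) S T

theorem tn_Q0 (K : Kah A) (hd : Dat D M a) :
    Tn D M fun i v z => Q0 (gk K i z) (Ca D a i v z) where
  law i j v x hx := by rw [g_law K hx, Ca, Cf_law hd v hx, Q0_conj (Jm_det_ne K hx)]
  inv m hm i v z _ := by rw [Ca, rd_inv hd hm]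
  cont i v s p := by
    have h1 : ContinuousOn (fun z => (gk K i z)⁻¹) (A.e i).target := cont_of_SM fun z hz =>
      (kf_sm (kf_gk K i) hz).inv (kf_det (kf_gk K i) hz)
    have h0 : ContinuousOn (fun z => (gk K i z).det) (A.e i).target :=
      (continuous_id.matrix_det).comp_continuousOn
        (cont_of_SM fun z hz => kf_sm (kf_gk K i) hz)
    exact h0.mul (cont_ent (cont_mul (cont_mul (cont_ct (cont_vCa hd i v))
      (cont_Gam.comp_continuousOn h1)) (cont_vCa hd i v)) s p)

theorem tn_Wm (K : Kah A) (hd : Dat D M a) {ε : ℝ} (hε : 0 < ε) {Z : Cn q → Mt q}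
    (hZ : Continuous Z) : Tn D M fun i v z => Wm (gE (gk K i z) (Ca D a i v z) ε)
      (Ca D a i v z * Z (rd D a i v z) * (Ca D a i v z)ᴴ) where
  law i j v x hx := by
    rw [g_law K hx, Ca, Cf_law hd v hx, gE_conj, rd_law a v hx, ← Wm_conj (Jm_det_ne K hx),
      Matrix.conjTranspose_mul]
    simp only [Matrix.mul_assoc]
  inv m hm i v z _ := by rw [Ca, rd_inv hd hm]
  cont i v s p := by
    have hC : ContinuousOn (Ca D a i v) (A.e i).target := cont_of_SM fun _ hz => sm_Ca hd i v hz
    have h1 := cont_mul (cont_mul hC (hZ.comp_continuousOn (hol_rd hd i v).continuousOn))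
      (cont_ct hC)
    simp only [Wm_apply]
    exact continuousOn_finsetSum _ fun t _ => ContinuousOn.mul (fun z hz =>
      (kf_W4 (kf_gE (kf_gk K i) (hol_rd hd i v) hε) hz _ _).continuousAt.continuousWithinAt)
      (cont_ent h1 _ _)

end

end Crest.Agent.X261.Fam69

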